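import Vale.Agent.P166.Phase.Threshold

/-!
Convexity of the R-transform, in the form `M³ ≤ G³ K`, implies the second-moment criterion.
-/

open MeasureTheory Filter
open scoped Topology ENNReal

noncomputable section

namespace Vale.Agent.P166.Phase

/-- `∫ (z - x)⁻³` -/
def stielCube (μ : Measure ℝ) (z : ℝ) : ℝ := ∫ x, ((z - x) ^ 3)⁻¹ ∂μ

/-- convexity of the R-transform along the right branch -/
def Skew (μ : Measure ℝ) : Prop :=
  ∀ z, top μ < z → stielSq μ z ^ 3 ≤ stiel μ z ^ 3 * stielCube μ z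

variable {μ : Measure ℝ} [IsProbabilityMeasure μ]

lemma integrable_cube (hμ : IsCompact μ.support) {z : ℝ} (hz : top μ < z) :
    Integrable (fun x => ((z - x) ^ 3)⁻¹) μ := by
  have hd : 0 < z - top μ := sub_pos.2 hz
  refine Integrable.of_bound (by fun_prop : Measurable _).aestronglyMeasurable ((z - top μ) ^ 3)⁻¹
    ((ae_mem hμ).mono fun x hx => ?_)
  have h : z - top μ ≤ z - x := by linarith
  rw [Real.norm_eq_abs, abs_inv, abs_of_pos (pow_pos (hd.trans_le h) 3)]
  exact inv_anti₀ (pow_pos hd 3) (pow_le_pow_left₀ hd.le h 3)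

lemma hasDerivAt_stielSq (hμ : IsCompact μ.support) {z : ℝ} (hz : top μ < z) :
    HasDerivAt (stielSq μ) (-2 * stielCube μ z) z := by
  set d := (z - top μ) / 2
  have hd : 0 < d := by simp only [d]; linarith
  have hb : ∀ᵐ x ∂μ, ∀ t ∈ Metric.ball z d, d ≤ t - x := (ae_mem hμ).mono fun x hx t ht => by
    rw [Metric.mem_ball, Real.dist_eq] at ht
    have := (abs_lt.1 ht).1
    simp only [d] at this ⊢; linarith
  have h := hasDerivAt_integral_of_dominated_loc_of_deriv_le (μ := μ) (F := fun t x => ((t - x) ^ 2)⁻¹)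
    (F' := fun t x => -2 * ((t - x) ^ 3)⁻¹) (x₀ := z) (bound := fun _ => 2 * (d ^ 3)⁻¹) (Metric.ball_mem_nhds z hd)
    (Eventually.of_forall fun t => (by fun_prop : Measurable _).aestronglyMeasurable) (integrable_kernels hμ hz).2.1
    (by fun_prop : Measurable _).aestronglyMeasurable
    (hb.mono fun x hx t ht => by
      rw [Real.norm_eq_abs, abs_mul, abs_neg, abs_two, abs_inv, abs_of_pos (pow_pos (hd.trans_le (hx t ht)) 3)]
      exact mul_le_mul_of_nonneg_left (inv_anti₀ (pow_pos hd 3) (pow_le_pow_left₀ hd.le (hx t ht) 3)) two_pos.le)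
    (integrable_const _)
    (hb.mono fun x hx t ht => by
      have h0 : t - x ≠ 0 := (hd.trans_le (hx t ht)).ne'
      refine ((((hasDerivAt_id t).sub_const x).fun_pow 2).fun_inv (pow_ne_zero 2 h0)).congr_deriv ?_
      simp only [id_eq]
      push_cast
      field_simp)
  have h2 := h.2
  rw [integral_const_mul] at h2
  exact h2

/-- the derivative of the R-transform is nonnegative and increases along the branch -/
lemma rder_mono (hμ : IsCompact μ.support) (hs : Skew μ) {z0 z : ℝ} (hz0 : top μ < z0) (hle : z0 ≤ z) :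
    0 ≤ 1 / stiel μ z ^ 2 - 1 / stielSq μ z ∧
      1 / stiel μ z ^ 2 - 1 / stielSq μ z ≤ 1 / stiel μ z0 ^ 2 - 1 / stielSq μ z0 := by
  have hz := hz0.trans_le hle
  refine ⟨sub_nonneg.2 (one_div_le_one_div_of_le (by have := (stiel_pos hμ hz).1; positivity) (sq_stiel_le hμ hz)), ?_⟩
  have hd : ∀ t, top μ < t → HasDerivAt (fun t => (stiel μ t ^ 2)⁻¹ - (stielSq μ t)⁻¹)
      (2 * stielSq μ t / stiel μ t ^ 3 - 2 * stielCube μ t / stielSq μ t ^ 2) t := fun t ht => by
    obtain ⟨hG, hM⟩ := stiel_pos hμ ht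
    refine ((((hasDerivAt_kernels hμ ht).1.fun_pow 2).fun_inv (pow_ne_zero 2 hG.ne')).sub
      ((hasDerivAt_stielSq hμ ht).fun_inv hM.ne')).congr_deriv ?_
    push_cast
    field_simp
  have hanti : AntitoneOn (fun t => (stiel μ t ^ 2)⁻¹ - (stielSq μ t)⁻¹) (Set.Ioi (top μ)) := by
    refine antitoneOn_of_deriv_nonpos (convex_Ioi _) (fun t ht => (hd t ht).continuousAt.continuousWithinAt)
      (fun t ht => (hd t (interior_subset ht)).differentiableAt.differentiableWithinAt) fun t ht => ?_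
    rw [interior_Ioi] at ht
    obtain ⟨hG, hM⟩ := stiel_pos hμ ht
    rw [(hd t ht).deriv, sub_nonpos, div_le_div_iff₀ (pow_pos hG 3) (pow_pos hM 2)]
    linarith [hs t ht]
  simpa [one_div] using hanti hz0 hz hle

theorem crit_skew (hμ : IsCompact μ.support) (hs : Skew μ) {β : ℝ} (hβ : 0 < β)
    (hG : ENNReal.ofReal β < edgeG μ) : Crit μ β := by
  intro z hz hzβ
  obtain ⟨z0, hz0, hv⟩ := exists_crit hμ hβ hG
  obtain ⟨hG0, hM⟩ := stiel_pos hμ hz
  have hM0 := (stiel_pos hμ hz0).2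
  have hle : z0 ≤ z := by
    by_contra hc
    have := (stiel_strictAnti hμ).antitoneOn hz hz0 (not_le.1 hc).le
    linarith
  obtain ⟨hr, hrr⟩ := rder_mono hμ hs hz0 hle
  rw [hv] at hrr
  set G := stiel μ z
  set M := stielSq μ z
  set M0 := stielSq μ z0
  set k := G ^ 2 * (1 / G ^ 2 - 1 / M)
  set k0 := β ^ 2 * (1 / β ^ 2 - 1 / M0)
  have ek : k = 1 - G ^ 2 / M := by simp only [k]; field_simp
  have ek0 : k0 = 1 - β ^ 2 / M0 := by simp only [k0]; field_simp
  have hk0 : k0 < 1 := by rw [ek0]; linarith [div_pos (sq_pos_of_pos hβ) hM0]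
  have hkk : k * (G + β) ^ 2 ≤ 4 * G ^ 2 * k0 := by
    simp only [k, k0]
    have h1 : (G + β) ^ 2 ≤ 4 * β ^ 2 := by nlinarith
    have h2 := mul_le_mul hrr h1 (sq_nonneg _) (hr.trans hrr)
    have h3 := mul_le_mul_of_nonneg_left h2 (sq_nonneg G)
    linarith
  have hk : k * (G + β) ^ 2 < 4 * G ^ 2 := by
    have := mul_lt_mul_of_pos_left hk0 (show 0 < 4 * G ^ 2 by positivity)
    linarith
  have hk1 : (β - G) * (β + 3 * G) < (1 - k) * (G + β) ^ 2 := by linarith
  have hgap : 0 < β - G := by linarith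
  have hpoly : 4 * (β - G) * (G + β) ^ 2 ≤ (2 * β - G) ^ 2 * (β + 3 * G) := by
    nlinarith [mul_nonneg hG0.le (add_nonneg (sq_nonneg (2 * β - (7 / 4) * G)) (sq_nonneg G))]
  have hA := mul_le_mul_of_nonneg_left hpoly hgap.le
  have hB := mul_lt_mul_of_pos_left hk1 (show 0 < (2 * β - G) ^ 2 by
    have : 0 < 2 * β - G := by linarith
    positivity)
  have h1 : 4 * (β - G) ^ 2 < (2 * β - G) ^ 2 * (1 - k) := by
    refine lt_of_mul_lt_mul_right (a := (G + β) ^ 2) ?_ (sq_nonneg _)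
    linarith
  have h2 := mul_lt_mul_of_pos_left h1 hM
  have h3 : M * (1 - k) = G ^ 2 := by rw [ek]; field_simp; ring
  calc 4 * (β - G) ^ 2 * M = M * (4 * (β - G) ^ 2) := by ring
    _ < M * ((2 * β - G) ^ 2 * (1 - k)) := h2
    _ = G ^ 2 * (2 * β - G) ^ 2 := by rw [← h3]; ring

theorem crit_skew_edge (hμ : IsCompact μ.support) (hs : Skew μ) {g : ℝ} (hG : edgeG μ = ENNReal.ofReal g) :
    ∀ z, top μ < z → stiel μ z < g →
      4 * (g - stiel μ z) ^ 2 * stielSq μ z ≤ stiel μ z ^ 2 * (2 * g - stiel μ z) ^ 2 := by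
  intro z hz hzg
  obtain ⟨hG0, -⟩ := stiel_pos hμ hz
  set G := stiel μ z
  have hg : 0 < g := hG0.trans hzg
  have hev : ∀ᶠ b in 𝓝[<] g, 4 * (b - G) ^ 2 * stielSq μ z ≤ G ^ 2 * (2 * b - G) ^ 2 := by
    filter_upwards [Ioo_mem_nhdsLT hzg] with b hb
    exact (crit_skew hμ hs (hG0.trans hb.1) (hG ▸ (ENNReal.ofReal_lt_ofReal_iff hg).2 hb.2) z hz hb.1).le
  exact le_of_tendsto_of_tendsto ((by fun_prop : Continuous fun b : ℝ => 4 * (b - G) ^ 2 * stielSq μ z).continuousWithinAt)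
    ((by fun_prop : Continuous fun b : ℝ => G ^ 2 * (2 * b - G) ^ 2).continuousWithinAt) hev

end Vale.Agent.P166.Phase
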