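import Vale.Agent.P166.Phase.Convex.Criterion
import Vale.Agent.P166.Phase.FreeID.Criterion
import Vale.Agent.P166.Soft.Image

/-!
Increasing convex images of the semicircle law have a convex R-transform, in the form `M³ ≤ G³ K`.
-/

open MeasureTheory Filter Set
open scoped Topology

noncomputable section

namespace Vale.Agent.P166.Phase.Convex

open Soft (cl abs_cl cl_of_abs_le continuous_cl mono_cl Rk_dirac)

variable {ν : Measure ℝ} [IsProbabilityMeasure ν]

lemma carried_dirac : Pattern.Signed.Carried (Measure.dirac (0:ℝ)) 0 := ⟨inferInstance, le_rfl, by simp [ae_dirac_eq]⟩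

lemma branch_inj {y g w : ℝ} (hy : 0 < y) (hy1 : y < 1) (hg : 0 < g) (hg1 : g < 1) (e : w = 1 / y + y)
    (e' : w = 1 / g + g) : y = g := by
  subst e
  have : (y - g) * (y * g - 1) = 0 := by
    field_simp at e'
    linarith
  have h : y * g - 1 < 0 := by nlinarith
  linarith [(mul_eq_zero.1 this).resolve_right h.ne]

lemma semi_facts (hν : IsCompact ν.support)
    (heq : ∀ᶠ w : ℝ in atTop, w = 1 / (∫ x, 1 / (w - x) ∂ν) + (∫ x, 1 / (w - x) ∂ν)) {w : ℝ} (hw : top ν < w) :
    w = 1 / stiel ν w + stiel ν w ∧ stiel ν w < 1 ∧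
      stielSq ν w * (1 - stiel ν w ^ 2) = stiel ν w ^ 2 ∧
      stielSq ν w ^ 3 = stiel ν w ^ 3 * stielCube ν w := by
  have he : ∀ᶠ u in atTop, u = 1 / Pattern.Multi.cauchy ν u +
      Pattern.Multi.Rk 0 (Measure.dirac (0:ℝ)) (Pattern.Multi.cauchy ν u) := by
    filter_upwards [heq] with u hu
    rw [Rk_dirac]
    exact hu
  have hM : ∀ u, top ν < u → stielSq ν u * (1 - stiel ν u ^ 2) = stiel ν u ^ 2 := fun u hu => by
    have h := FreeID.stielSq_eq carried_dirac hν he hu
    simpa [FreeID.Rd, integral_dirac] using h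
  obtain ⟨hG, hM0⟩ := stiel_pos hν hw
  have h1 := (FreeID.branch carried_dirac hν he hw).2
  rw [Rk_dirac] at h1
  have hG1 : stiel ν w < 1 := by
    by_contra hc
    nlinarith [hM w hw, not_lt.1 hc, mul_le_mul (not_lt.1 hc) (not_lt.1 hc) zero_le_one hG.le]
  refine ⟨h1, hG1, hM w hw, ?_⟩
  have dl := (hasDerivAt_stielSq hν hw).fun_mul (((hasDerivAt_kernels hν hw).1.fun_pow 2).const_sub 1)
  have dr := (hasDerivAt_kernels hν hw).1.fun_pow 2
  have e := (dl.congr_of_eventuallyEq (f₁ := fun u => stiel ν u ^ 2)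
    ((eventually_gt_nhds hw).mono fun u hu => (hM u hu).symm)).unique dr
  have e2 := hM w hw
  set G := stiel ν w
  set M := stielSq ν w
  set K := stielCube ν w
  push_cast at e
  have e' : K * (1 - G ^ 2) = G * M * (1 + M) := by linarith
  have h2 : G * (K * G ^ 3 - M ^ 3) = 0 := by
    linear_combination (G ^ 2 * M) * e' - (K * G ^ 2 + G * M ^ 2) * e2
  linarith [(mul_eq_zero.1 h2).resolve_left hG.ne']

lemma cube_le {c1 c2 t s : ℝ} (hc : c1 ≤ c2)
    (h : (c2 ≤ s ∧ s ≤ t) ∨ (c1 ≤ t ∧ t ≤ s ∧ s ≤ c2) ∨ (s ≤ t ∧ t ≤ c1)) :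
    s ^ 3 - 3 / 2 * (c1 + c2) * s ^ 2 + 3 * c1 * c2 * s ≤ t ^ 3 - 3 / 2 * (c1 + c2) * t ^ 2 + 3 * c1 * c2 * t := by
  set f := fun y => (y - c1) * (y - c2)
  have e : (t ^ 3 - 3 / 2 * (c1 + c2) * t ^ 2 + 3 * c1 * c2 * t) - (s ^ 3 - 3 / 2 * (c1 + c2) * s ^ 2 + 3 * c1 * c2 * s) =
      (t - s) * ((f t + 4 * f ((t + s) / 2) + f s) / 2) := by simp only [f]; ring
  rcases h with ⟨h1, h2⟩ | ⟨h1, h2, h3⟩ | ⟨h1, h2⟩
  · have hf : ∀ y, c2 ≤ y → 0 ≤ f y := fun y hy => mul_nonneg (by linarith) (by linarith)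
    have := mul_nonneg (sub_nonneg.2 h2) (div_nonneg (add_nonneg (add_nonneg (hf t (h1.trans h2))
      (mul_nonneg zero_le_four (hf ((t + s) / 2) (by linarith)))) (hf s h1)) zero_le_two)
    linarith
  · have hf : ∀ y, c1 ≤ y → y ≤ c2 → f y ≤ 0 := fun y h h' => mul_nonpos_of_nonneg_of_nonpos (by linarith) (by linarith)
    have := mul_nonneg_of_nonpos_of_nonpos (sub_nonpos.2 h2) (div_nonpos_of_nonpos_of_nonneg
      (show f t + 4 * f ((t + s) / 2) + f s ≤ 0 by
        linarith [hf t h1 (by linarith), hf ((t + s) / 2) (by linarith) (by linarith), hf s (by linarith) h3]) zero_le_two)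
    linarith
  · have hf : ∀ y, y ≤ c1 → 0 ≤ f y := fun y hy => mul_nonneg_of_nonpos_of_nonpos (by linarith) (by linarith)
    have := mul_nonneg (sub_nonneg.2 h1) (div_nonneg (add_nonneg (add_nonneg (hf t h2)
      (mul_nonneg zero_le_four (hf ((t + s) / 2) (by linarith)))) (hf s (h1.trans h2))) zero_le_two)
    linarith

theorem skew_image (hν : IsCompact ν.support) (htop : sSup ν.support = 2) (hbot : sInf ν.support = -2)
    (heq : ∀ᶠ w : ℝ in atTop, w = 1 / (∫ x, 1 / (w - x) ∂ν) + (∫ x, 1 / (w - x) ∂ν))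
    {φ : ℝ → ℝ} (hc : ContinuousOn φ (Icc (-2) 2)) (hm : MonotoneOn φ (Icc (-2) 2))
    (hx : ConvexOn ℝ (Icc (-2) 2) φ) :
    IsProbabilityMeasure (ν.map φ) ∧ IsCompact (ν.map φ).support ∧ top (ν.map φ) = φ 2 ∧ Skew (ν.map φ) := by
  set I := Icc (-2:ℝ) 2
  set ψ := fun x => φ (cl 2 x)
  have hclI : ∀ x, cl 2 x ∈ I := fun x => abs_le.1 (abs_cl zero_le_two x)
  have hψ : Continuous ψ := hc.comp_continuous (continuous_cl 2) hclI
  have hψI : ∀ x ∈ I, ψ x = φ x := fun x hx => by simp only [ψ, cl_of_abs_le (abs_le.2 ⟨hx.1, hx.2⟩)]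
  have hle : ∀ x, ψ x ≤ φ 2 := fun x => hm (hclI x) (right_mem_Icc.2 (by norm_num)) (hclI x).2
  have hge : ∀ x, φ (-2) ≤ ψ x := fun x => hm (left_mem_Icc.2 (by norm_num)) (hclI x) (hclI x).1
  have hmem : ∀ᵐ x ∂ν, x ∈ I := by
    filter_upwards [Measure.support_mem_ae (μ := ν)] with x hx
    exact ⟨hbot ▸ csInf_le hν.bddBelow hx, htop ▸ le_csSup hν.bddAbove hx⟩
  have e : ν.map φ = ν.map ψ := Measure.map_congr (hmem.mono fun x hx => (hψI x hx).symm)
  rw [e]
  set μ := ν.map ψ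
  have hp : IsProbabilityMeasure μ := Measure.isProbabilityMeasure_map hψ.measurable.aemeasurable
  have hsub : μ.support ⊆ Icc (φ (-2)) (φ 2) := by
    refine Measure.support_subset_of_isClosed isClosed_Icc ?_
    refine (ae_map_iff hψ.measurable.aemeasurable (p := fun y => y ∈ Icc (φ (-2)) (φ 2)) measurableSet_Icc).2 ?_
    exact .of_forall fun x => ⟨hge x, hle x⟩
  have h2 : φ 2 ∈ μ.support := by
    have h2 : (2:ℝ) ∈ ν.support := htop ▸ hν.sSup_mem support_nonempty
    rw [← hψI 2 (right_mem_Icc.2 (by norm_num))]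
    rw [Measure.mem_support_iff_forall] at h2 ⊢
    intro V hV
    exact lt_of_lt_of_le (h2 (ψ ⁻¹' V) (hψ.continuousAt.preimage_mem_nhds hV))
      (Measure.le_map_apply hψ.measurable.aemeasurable _)
  have htopμ : top μ = φ 2 :=
    le_antisymm (csSup_le ⟨_, h2⟩ fun x hx => (hsub hx).2) (le_csSup (bddAbove_Icc.mono hsub) h2)
  have hμ : IsCompact μ.support := isCompact_Icc.of_isClosed_subset Measure.isClosed_support hsub
  refine ⟨hp, hμ, htopμ, fun z hz => ?_⟩
  rw [htopμ] at hz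
  set t := fun x => (z - ψ x)⁻¹
  have hu : ∀ x, 0 < z - ψ x := fun x => by linarith [hle x]
  have htc : Continuous t := (continuous_const.sub hψ).inv₀ fun x => (hu x).ne'
  have hG : stiel μ z = ∫ x, t x ∂ν := integral_map hψ.measurable.aemeasurable (by fun_prop : Measurable _).aestronglyMeasurable
  have hM : stielSq μ z = ∫ x, t x ^ 2 ∂ν :=
    (integral_map hψ.measurable.aemeasurable (by fun_prop : Measurable _).aestronglyMeasurable).trans (by simp only [t, inv_pow])
  have hK : stielCube μ z = ∫ x, t x ^ 3 ∂ν :=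
    (integral_map hψ.measurable.aemeasurable (by fun_prop : Measurable _).aestronglyMeasurable).trans (by simp only [t, inv_pow])
  have hz' : top μ < z := htopμ ▸ hz
  obtain ⟨hG0, hM0⟩ := stiel_pos hμ hz'
  have hint : ∀ k : ℕ, Integrable (fun x => t x ^ k) ν := fun k => by
    refine Integrable.of_bound (htc.pow k).aestronglyMeasurable ((z - φ 2)⁻¹ ^ k) (.of_forall fun x => ?_)
    rw [Real.norm_eq_abs, abs_pow, abs_of_pos (inv_pos.2 (hu x))]
    exact pow_le_pow_left₀ (inv_pos.2 (hu x)).le (inv_anti₀ (sub_pos.2 hz) (by linarith [hle x])) k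
  rcases le_or_gt (stielSq μ z) (stiel μ z ^ 2) with hdeg | hdeg
  · -- degenerate case
    have hq : stielSq μ z = stiel μ z ^ 2 := le_antisymm hdeg (sq_stiel_le hμ hz')
    set G := stiel μ z
    have h : 0 ≤ ∫ x, t x * (t x - G) ^ 2 ∂ν := integral_nonneg fun x => mul_nonneg (inv_pos.2 (hu x)).le (sq_nonneg _)
    have ee : (fun x => t x * (t x - G) ^ 2) = fun x => t x ^ 3 - 2 * G * t x ^ 2 + G ^ 2 * t x ^ 1 := funext fun x => by ring
    rw [ee, integral_add (f := fun x => t x ^ 3 - 2 * G * t x ^ 2) ((hint 3).sub ((hint 2).const_mul _)) ((hint 1).const_mul _),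
      integral_sub (hint 3) ((hint 2).const_mul _), integral_const_mul, integral_const_mul] at h
    simp only [pow_one, ← hG, ← hM, ← hK] at h
    rw [hq] at h ⊢
    nlinarith [pow_pos hG0 3]
  set G := stiel μ z
  set M := stielSq μ z
  set K := stielCube μ z
  -- the comparison point
  set G1 := √(1 - G ^ 2 / M)
  have hfr : 0 < 1 - G ^ 2 / M := by rw [sub_pos, div_lt_one hM0]; exact hdeg
  have hG1 : G1 ^ 2 = 1 - G ^ 2 / M := Real.sq_sqrt hfr.le
  have hG1p : 0 < G1 := Real.sqrt_pos.2 hfr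
  have hG1l : G1 < 1 := by nlinarith [div_pos (pow_pos hG0 2) hM0]
  set w := 1 / G1 + G1
  have hw : top ν < w := by
    rw [show top ν = 2 from htop]
    simp only [w]
    rw [div_add' _ _ _ hG1p.ne', lt_div_iff₀ hG1p]
    nlinarith [pow_pos (sub_pos.2 hG1l) 2]
  obtain ⟨hwe, hwl, hwM, hwK⟩ := semi_facts hν heq hw
  obtain ⟨hwp, -⟩ := stiel_pos hν hw
  have hGw : stiel ν w = G1 := branch_inj hwp hwl hG1p hG1l hwe rfl
  rw [hGw] at hwM hwK
  set M1 := stielSq ν w
  set lam := G1 / G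
  have hlam : 0 < lam := div_pos hG1p hG0
  have hM1 : M1 = M * lam ^ 2 := by
    have : M1 * (G ^ 2 / M) = G1 ^ 2 := by rw [← hwM, hG1]; ring
    simp only [lam]
    field_simp at this ⊢
    linarith
  have hw2 : 2 < w := by rw [← htop]; exact hw
  set s := fun x => (lam * (w - cl 2 x))⁻¹
  set d := fun x => (z - ψ x) - lam * (w - cl 2 x)
  have hsp : ∀ x, 0 < lam * (w - cl 2 x) := fun x => mul_pos hlam (by linarith [(hclI x).2])
  have hsc : Continuous s := (continuous_const.mul (continuous_const.sub (continuous_cl 2))).inv₀ fun x => (hsp x).ne'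
  have hs1 : ∀ k : ℕ, Integrable (fun x => s x ^ k) ν ∧ ∫ x, s x ^ k ∂ν = lam⁻¹ ^ k * ∫ x, ((w - x) ^ k)⁻¹ ∂ν := fun k => by
    refine ⟨Integrable.of_bound (hsc.pow k).aestronglyMeasurable ((lam * (w - 2))⁻¹ ^ k) (.of_forall fun x => ?_), ?_⟩
    · rw [Real.norm_eq_abs, abs_pow, abs_of_pos (inv_pos.2 (hsp x))]
      exact pow_le_pow_left₀ (inv_pos.2 (hsp x)).le (inv_anti₀ (mul_pos hlam (sub_pos.2 hw2))
        (mul_le_mul_of_nonneg_left (by linarith [(hclI x).2]) hlam.le)) k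
    · rw [← integral_const_mul]
      refine integral_congr_ae (hmem.mono fun x hx => ?_)
      simp only [s, cl_of_abs_le (abs_le.2 ⟨hx.1, hx.2⟩), mul_inv, mul_pow, inv_pow]
  have es1 : ∫ x, s x ∂ν = G := by
    have h := (hs1 1).2
    simp only [pow_one] at h
    rw [h, show ∫ x, (w - x)⁻¹ ∂ν = stiel ν w from rfl, hGw]
    simp only [lam]; field_simp
  have es2 : ∫ x, s x ^ 2 ∂ν = M := by
    rw [(hs1 2).2, show ∫ x, ((w - x) ^ 2)⁻¹ ∂ν = M1 from rfl, hM1, inv_pow]
    field_simp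
  have es3 : ∫ x, s x ^ 3 ∂ν = (M / G) ^ 3 := by
    rw [(hs1 3).2, show ∫ x, ((w - x) ^ 3)⁻¹ ∂ν = stielCube ν w from rfl,
      show stielCube ν w = M1 ^ 3 / G1 ^ 3 by rw [hwK]; field_simp, hM1]
    simp only [lam]
    field_simp
  have hconc : ConcaveOn ℝ I d := by
    refine ⟨convex_Icc _ _, fun x hx' y hy' a b ha hb hab => ?_⟩
    have hxy : a • x + b • y ∈ I := convex_Icc _ _ hx' hy' ha hb hab
    have h := hx.2 hx' hy' ha hb hab
    simp only [d, hψI x hx', hψI y hy', hψI _ hxy, cl_of_abs_le (abs_le.2 ⟨hx'.1, hx'.2⟩),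
      cl_of_abs_le (abs_le.2 ⟨hy'.1, hy'.2⟩), cl_of_abs_le (abs_le.2 ⟨hxy.1, hxy.2⟩)]
    simp only [smul_eq_mul] at h ⊢
    linear_combination h + (z - lam * w) * hab
  have hdc : Continuous d := (continuous_const.sub hψ).sub (continuous_const.mul (continuous_const.sub (continuous_cl 2)))
  have hts : ∀ x, d x < 0 → s x ≤ t x := fun x h => inv_anti₀ (hu x) (by simp only [d] at h; linarith)
  have hst : ∀ x, 0 ≤ d x → t x ≤ s x := fun x h => inv_anti₀ (hsp x) (by simp only [d] at h; linarith)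
  set S := I ∩ d ⁻¹' Ici 0
  have hScl : IsClosed S := isClosed_Icc.inter (isClosed_Ici.preimage hdc)
  have hSne : S.Nonempty := by
    by_contra hcon
    have hneg : ∀ x ∈ I, d x < 0 := fun x hx => not_le.1 fun h => hcon ⟨x, hx, h⟩
    have hpos : ∀ x ∈ I, 0 < t x - s x := fun x hx =>
      sub_pos.2 (inv_strictAnti₀ (hu x) (by have := hneg x hx; simp only [d] at this; linarith))
    obtain ⟨x0, hx0, hmin⟩ := isCompact_Icc.exists_isMinOn (nonempty_Icc.2 (by norm_num : (-2:ℝ) ≤ 2))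
      (htc.sub hsc).continuousOn
    have h := integral_mono_ae (integrable_const (t x0 - s x0))
      (((hint 1).congr (.of_forall fun x => pow_one _)).sub ((hs1 1).1.congr (.of_forall fun x => pow_one _)))
      (hmem.mono fun x hx => isMinOn_iff.1 hmin x hx)
    simp only [Pi.sub_apply, integral_const, probReal_univ, one_smul] at h
    rw [integral_sub ((hint 1).congr (.of_forall fun x => pow_one _)) ((hs1 1).1.congr (.of_forall fun x => pow_one _)),
      es1, ← hG] at h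
    linarith [hpos x0 hx0]
  have hSb : S ⊆ I := inter_subset_left
  set p := sInf S
  set q := sSup S
  have hpS : p ∈ S := hScl.csInf_mem hSne (bddBelow_Icc.mono hSb)
  have hqS : q ∈ S := hScl.csSup_mem hSne (bddAbove_Icc.mono hSb)
  have hpq : p ≤ q := csInf_le_csSup hSne (bddBelow_Icc.mono hSb) (bddAbove_Icc.mono hSb)
  have htm : ∀ x ∈ I, ∀ y ∈ I, x ≤ y → t x ≤ t y := fun x hx y hy hxy =>
    inv_anti₀ (hu y) (by have := hm hx hy hxy; simp only [hψI x hx, hψI y hy]; linarith)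
  have hsm : ∀ x y, x ≤ y → s x ≤ s y := fun x y hxy =>
    inv_anti₀ (hsp y) (mul_le_mul_of_nonneg_left (sub_le_sub_left (mono_cl 2 hxy) w) hlam.le)
  set c1 := t p
  set c2 := s q
  have hc12 : c1 ≤ c2 := (hst p hpS.2).trans (hsm p q hpq)
  have hP : ∀ x ∈ I, s x ^ 3 - 3 / 2 * (c1 + c2) * s x ^ 2 + 3 * c1 * c2 * s x ≤
      t x ^ 3 - 3 / 2 * (c1 + c2) * t x ^ 2 + 3 * c1 * c2 * t x := fun x hx => by
    refine cube_le hc12 ?_
    by_cases hd : 0 ≤ d x
    · refine Or.inr (Or.inl ⟨htm p hpS.1 x hx (csInf_le (bddBelow_Icc.mono hSb) ⟨hx, hd⟩), hst x hd,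
        hsm x q (le_csSup (bddAbove_Icc.mono hSb) ⟨hx, hd⟩)⟩)
    have hd' := not_le.1 hd
    rcases le_or_gt x p with hxp | hxp
    · exact Or.inr (Or.inr ⟨hts x hd', htm x hx p hpS.1 hxp⟩)
    rcases le_or_gt x q with hxq | hxq
    · exfalso
      have h := hconc.ge_on_segment' hpS.1 hqS.1 (a := (q - x) / (q - p)) (b := (x - p) / (q - p))
        (div_nonneg (by linarith) (by linarith)) (div_nonneg (by linarith) (by linarith))
        (by rw [← add_div]; rw [show q - x + (x - p) = q - p by ring, div_self (by linarith)])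
      have ex : ((q - x) / (q - p)) • p + ((x - p) / (q - p)) • q = x := by
        simp only [smul_eq_mul]
        have : q - p ≠ 0 := by linarith
        field_simp
        ring
      rw [ex] at h
      exact hd ((le_min hpS.2 hqS.2).trans h)
    · exact Or.inl ⟨hsm q x hxq.le, hts x hd'⟩
  have hti : Integrable t ν := (hint 1).congr (.of_forall fun x => pow_one _)
  have hsi : Integrable s ν := (hs1 1).1.congr (.of_forall fun x => pow_one _)
  have h := integral_mono_ae (((hs1 3).1.sub ((hs1 2).1.const_mul (3 / 2 * (c1 + c2)))).add (hsi.const_mul (3 * c1 * c2)))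
    (((hint 3).sub ((hint 2).const_mul (3 / 2 * (c1 + c2)))).add (hti.const_mul (3 * c1 * c2))) (hmem.mono hP)
  simp only [Pi.add_apply, Pi.sub_apply] at h
  rw [integral_add (f := fun x => s x ^ 3 - 3 / 2 * (c1 + c2) * s x ^ 2) ((hs1 3).1.sub ((hs1 2).1.const_mul _))
      (hsi.const_mul _), integral_sub (hs1 3).1 ((hs1 2).1.const_mul _), integral_const_mul, integral_const_mul,
    integral_add (f := fun x => t x ^ 3 - 3 / 2 * (c1 + c2) * t x ^ 2) ((hint 3).sub ((hint 2).const_mul _))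
      (hti.const_mul _), integral_sub (hint 3) ((hint 2).const_mul _), integral_const_mul, integral_const_mul,
    es1, es2, es3, ← hG, ← hM, ← hK] at h
  have h' : M ^ 3 / G ^ 3 ≤ K := by rw [← div_pow]; linarith
  rw [div_le_iff₀ (pow_pos hG0 3)] at h'
  linarith

end Vale.Agent.P166.Phase.Convex
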