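import Vale.Agent.P166.Phase.Convex.Image

/-!
The annealed phase of increasing convex images of the semicircle law.
-/

open MeasureTheory Filter Set
open scoped Topology

noncomputable section

namespace Vale.Agent.P166.Phase.Convex

/-- the pressure equals the annealed value exactly up to the edge -/
theorem image_phase {ν : Measure ℝ} [IsProbabilityMeasure ν] (hν : IsCompact ν.support)
    (heq : ∀ᶠ w : ℝ in atTop, w = 1 / (∫ x, 1 / (w - x) ∂ν) + (∫ x, 1 / (w - x) ∂ν))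
    {φ : ℝ → ℝ} (hc : ContinuousOn φ (Icc (-2) 2)) (hm : MonotoneOn φ (Icc (-2) 2))
    (hx : ConvexOn ℝ (Icc (-2) 2) φ) :
    IsProbabilityMeasure (ν.map φ) ∧ IsCompact (ν.map φ).support ∧
      ∀ lam : ∀ N : ℕ, Fin N → ℝ, Admissible (ν.map φ) lam →
      ∀ H : ∀ N : ℕ, Measure (Mat N), (∀ N, IsHaarOrthogonal (H N)) → ∀ β : ℝ, 0 < β →
        (ENNReal.ofReal β < edgeG (ν.map φ) → ∀ ε : ℝ, 0 < ε → Tendsto (fun N : ℕ => (H N).real
          {U | ε ≤ |pressure β (lam N) U - annealed (ν.map φ) β|}) atTop (𝓝 0)) ∧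
        ∀ g : ℝ, edgeG (ν.map φ) = ENNReal.ofReal g →
          ((∀ ε : ℝ, 0 < ε → Tendsto (fun N : ℕ => (H N).real
            {U | ε ≤ |pressure β (lam N) U - annealed (ν.map φ) β|}) atTop (𝓝 0)) ↔ β ≤ g) := by
  obtain ⟨ν', hp', hc', htop, hbot, he', -⟩ := Soft.semicircle_good
  have := Soft.semicircle_unique hν hc' heq he'
  subst this
  obtain ⟨hp, hcomp, -, hs⟩ := skew_image hν htop hbot heq hc hm hx
  exact ⟨hp, hcomp, fun lam hl H hH β hβ =>
    ⟨fun hG _ε hε => annealed_phase hcomp hl hH hβ hG (crit_skew hcomp hs hβ hG) hε,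
      fun _g hG => threshold hcomp hl hH hG (crit_skew_edge hcomp hs hG) hβ⟩⟩

end Vale.Agent.P166.Phase.Convex
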